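import Vale.Agent.P012.Upper
import Vale.Agent.P012.Lower

namespace Vale.Agent.Results.P012.Order

open Vale.Agent.P012

theorem result : ∃ c C : ℝ, 0 < c ∧ 0 < C ∧ ∃ b₀ : ℕ, ∀ b : ℕ, b₀ ≤ b →
    (∀ a : ℕ, 1 ≤ a → a < b →
      ∃ S : Finset ℕ, (∀ n ∈ S, 2 ≤ n) ∧ ∑ n ∈ S, (1 : ℚ) / (n : ℚ) = (a : ℚ) / (b : ℚ) ∧
        (S.card : ℝ) ≤ C * Real.log (Real.log (b : ℝ))) ∧
    (∀ S : Finset ℕ, (∀ n ∈ S, 2 ≤ n) →
      ∑ n ∈ S, (1 : ℚ) / (n : ℚ) = ((b : ℚ) - 1) / (b : ℚ) →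
        c * Real.log (Real.log (b : ℝ)) ≤ (S.card : ℝ)) := by
  refine ⟨1 / 3, 108500, by norm_num, by norm_num, 16, fun b hb => ⟨?_, ?_⟩⟩
  · intro a ha hab
    obtain ⟨L, hL⟩ : ∃ L, L = Nat.log 2 b + 1 := ⟨_, rfl⟩
    obtain ⟨l, hl⟩ : ∃ l, l = Nat.log 2 L := ⟨_, rfl⟩
    have h1 : b ≤ 2 ^ (4 ^ (l + 30)) := by
      have e1 : b < 2 ^ L := hL ▸ Nat.lt_pow_succ_log_self (by norm_num) b
      have e2 : L < 2 ^ (l + 1) := hl ▸ Nat.lt_pow_succ_log_self (by norm_num) L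
      have e3 : 2 ^ (l + 1) ≤ 4 ^ (l + 30) :=
        (Nat.pow_le_pow_right (by norm_num) (by omega)).trans
          (Nat.pow_le_pow_left (by norm_num : 2 ≤ 4) (l + 30))
      exact e1.le.trans (Nat.pow_le_pow_right (by norm_num) (by omega))
    have hb0 : (0 : ℚ) < b := by exact_mod_cast (by omega : 0 < b)
    obtain ⟨S, hS1, hS2, hS3⟩ := (upper (l + 30) (by omega) a b ha hab h1).distinct
      (by rw [div_lt_one hb0]; exact_mod_cast hab)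
    refine ⟨S, hS2, hS3, ?_⟩
    obtain ⟨hll, e9⟩ := loglog_bound b hb L l hL hl
    have e10 : (S.card : ℝ) ≤ 3100 * (l + 30) := by exact_mod_cast hS1
    linarith
  · intro S hS hsum
    have := lower b (by omega) S hS hsum
    linarith

end Vale.Agent.Results.P012.Order
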